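import Vale.Agent.P038.H465.Base

/-! P038, blocks B1 and B2 (294's theorem (G), unweighted) of helper465's split (helper121). -/

namespace Vale.Agent.P038.H465.H121

open Finset

attribute [local instance] Classical.propDecidable

variable {V : Type} [Fintype V]

theorem g_mem_cl {D : V → V → Prop} {S : Finset V} {u : V} : u ∈ cl D S ↔ ∃ x ∈ S, R D x u := by
  simp [cl]

theorem g_sub_cl (D : V → V → Prop) (S : Finset V) : S ⊆ cl D S := fun x hx =>
  g_mem_cl.2 ⟨x, hx, Or.inl rfl⟩

theorem g_cl_mono (D : V → V → Prop) {S T : Finset V} (h : S ⊆ T) : cl D S ⊆ cl D T := by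
  intro u hu
  obtain ⟨x, hx, hxu⟩ := g_mem_cl.1 hu
  exact g_mem_cl.2 ⟨x, h hx, hxu⟩

theorem g_cl_union (D : V → V → Prop) (S T : Finset V) : cl D (S ∪ T) = cl D S ∪ cl D T := by
  ext u
  simp only [g_mem_cl, Finset.mem_union]
  constructor
  · rintro ⟨x, hx | hx, hxu⟩
    · exact Or.inl ⟨x, hx, hxu⟩
    · exact Or.inr ⟨x, hx, hxu⟩
  · rintro (⟨x, hx, hxu⟩ | ⟨x, hx, hxu⟩)
    · exact ⟨x, Or.inl hx, hxu⟩
    · exact ⟨x, Or.inr hx, hxu⟩

/-- block B1 -/
theorem exists_min : StExistsMin V := by
  intro D hD
  have hwf : WellFounded (fun D₁ D₂ : V → V → Prop => cnt D₁ < cnt D₂) :=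
    InvImage.wf cnt Nat.lt_wfRel.wf
  obtain ⟨D', hD', hmin⟩ := hwf.has_min {D : V → V → Prop | CE D} ⟨D, hD⟩
  refine ⟨D', hD', fun D'' hle hCE u v huv => ?_⟩
  by_contra hn
  refine hmin D'' hCE ?_
  unfold cnt
  apply Finset.card_lt_card
  refine ⟨fun p hp => ?_, fun hsub => ?_⟩
  · simp only [mem_filter, mem_univ, true_and] at hp ⊢
    exact hle _ _ hp
  · have : (u, v) ∈ univ.filter (fun p : V × V => D'' p.1 p.2) := by
      apply hsub
      simp [huv]
    simp at this
    exact hn this

/-- block B2: 294's theorem (G) -/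
theorem strictG : StG V := by
  intro D hmin X hX
  by_contra hneg
  have hO : Ori D := hmin.1.1
  set L : Finset V := cl D X \ X with hL
  have hLX : Disjoint X L := Finset.disjoint_sdiff
  have hXL : X ∪ L = cl D X := Finset.union_sdiff_of_subset (g_sub_cl D X)
  have hLne : L.Nonempty := by
    rw [hL, Finset.sdiff_nonempty]
    exact hX
  -- d(T) = |N[T] \ X| - 2|T|
  let d : Finset V → ℤ := fun T => ((cl D T \ X).card : ℤ) - 2 * T.card
  have hdL : h D X = - d L := by
    unfold h
    have e1 : (cl D X).card = X.card + L.card := by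
      rw [← hXL, Finset.card_union_of_disjoint hLX]
    have e2 : cl D (cl D X) = X ∪ (cl D L \ X) := by
      rw [← hXL, g_cl_union, ← hXL]
      ext u
      simp only [Finset.mem_union, Finset.mem_sdiff]
      constructor
      · rintro ((hu | hu) | hu)
        · exact Or.inl hu
        · exact Or.inr ⟨g_sub_cl D L hu, fun hx => (Finset.disjoint_left.1 hLX) hx hu⟩
        · by_cases hx : u ∈ X
          · exact Or.inl hx
          · exact Or.inr ⟨hu, hx⟩
      · rintro (hu | hu)
        · exact Or.inl (Or.inl hu)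
        · exact Or.inr hu.1
    have e3 : (cl D (cl D X)).card = X.card + (cl D L \ X).card := by
      rw [e2, Finset.card_union_of_disjoint Finset.disjoint_sdiff]
    change 2 * ((cl D X).card : ℤ) - X.card - ((cl D (cl D X)).card : ℤ) =
      -(((cl D L \ X).card : ℤ) - 2 * L.card)
    omega
  have hdL0 : 0 ≤ d L := by linarith
  have hd0 : d ∅ = 0 := by
    have : cl D (∅ : Finset V) = ∅ := by
      ext u
      simp [g_mem_cl]
    simp [d, this]
  obtain ⟨T, hT, hTmin⟩ := Finset.exists_min_image L.ssubsets d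
    ⟨∅, Finset.mem_ssubsets.2 (Finset.ssubset_iff_subset_ne.2 ⟨Finset.empty_subset _,
      fun he => by rw [← he] at hLne; exact Finset.not_nonempty_empty hLne⟩)⟩
  have hTL : T ⊂ L := Finset.mem_ssubsets.1 hT
  have hdT0 : d T ≤ 0 := by
    rw [← hd0]
    exact hTmin ∅ (Finset.mem_ssubsets.2 (Finset.ssubset_iff_subset_ne.2
      ⟨Finset.empty_subset _, fun he => by rw [← he] at hLne; exact Finset.not_nonempty_empty hLne⟩))
  -- (1)
  have h1 : ∀ S ⊆ L \ T, 2 * (S.card : ℤ) ≤ ((cl D S \ (cl D T ∪ X)).card : ℤ) := by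
    intro S hS
    have hdTS : d T ≤ d (T ∪ S) := by
      by_cases hTS : T ∪ S = L
      · rw [hTS]
        linarith
      · refine hTmin _ (Finset.mem_ssubsets.2 (Finset.ssubset_iff_subset_ne.2 ⟨?_, hTS⟩))
        exact Finset.union_subset hTL.1 (hS.trans Finset.sdiff_subset)
    have hdisj : Disjoint T S := by
      rw [Finset.disjoint_left]
      intro x hx hxS
      exact (Finset.mem_sdiff.1 (hS hxS)).2 hx
    have c1 : (T ∪ S).card = T.card + S.card := Finset.card_union_of_disjoint hdisj
    have c2 : (cl D (T ∪ S) \ X).card = (cl D T \ X).card + (cl D S \ (cl D T ∪ X)).card := by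
      rw [← Finset.card_union_of_disjoint]
      · congr 1
        rw [g_cl_union]
        ext u
        simp only [Finset.mem_union, Finset.mem_sdiff]
        tauto
      · rw [Finset.disjoint_left]
        intro u hu hu'
        simp only [Finset.mem_union, Finset.mem_sdiff] at hu hu'
        tauto
    change ((cl D T \ X).card : ℤ) - 2 * T.card ≤ ((cl D (T ∪ S) \ X).card : ℤ) - 2 * (T ∪ S).card
      at hdTS
    rw [c1, c2] at hdTS
    push_cast at hdTS
    linarith
  -- the smaller graph
  let D' : V → V → Prop := fun u v => D u v ∧ (u ∈ X → v ∈ X ∨ v ∈ T)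
  have hD'le : ∀ u v, D' u v → D u v := fun u v h => h.1
  have hRle : ∀ u v, R D' u v → R D u v := by
    rintro u v (h | h)
    · exact Or.inl h
    · exact Or.inr h.1
  have hclle : ∀ S, cl D' S ⊆ cl D S := by
    intro S u hu
    obtain ⟨x, hx, hxu⟩ := g_mem_cl.1 hu
    exact g_mem_cl.2 ⟨x, hx, hRle _ _ hxu⟩
  have hCE : CE D' := by
    refine ⟨⟨fun v hv => hO.1 v hv.1, fun u v huv hvu => hO.2 u v huv.1 hvu.1⟩, fun y => ?_⟩
    have hy := hmin.1.2 y
    by_cases hyX : y ∈ X
    · set Dy : Finset V := cl D {y} \ (X ∪ T) with hDy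
      set Ey : Finset V := cl D Dy \ (cl D T ∪ X) with hEy
      have hDyL : Dy ⊆ L \ T := by
        intro u hu
        rw [hDy, Finset.mem_sdiff, Finset.mem_union] at hu
        rw [hL, Finset.mem_sdiff, Finset.mem_sdiff]
        refine ⟨⟨g_cl_mono D (Finset.singleton_subset_iff.2 hyX) hu.1, fun h => hu.2 (Or.inl h)⟩,
          fun h => hu.2 (Or.inr h)⟩
      have hE := h1 Dy hDyL
      have e1 : cl D' {y} = cl D {y} \ Dy := by
        ext u
        rw [Finset.mem_sdiff, hDy, Finset.mem_sdiff, Finset.mem_union, g_mem_cl, g_mem_cl]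
        simp only [Finset.mem_singleton, exists_eq_left]
        constructor
        · intro hu
          refine ⟨hRle _ _ hu, fun hc => hc.2 ?_⟩
          rcases hu with rfl | hu
          · exact Or.inl hyX
          · exact hu.2 hyX
        · rintro ⟨hu, hc⟩
          rcases hu with rfl | hu
          · exact Or.inl rfl
          · refine Or.inr ⟨hu, fun _ => ?_⟩
            by_contra hn
            exact hc ⟨Or.inr hu, hn⟩
      have hDysub : Dy ⊆ cl D {y} := Finset.sdiff_subset
      have e2 : ((cl D' {y}).card : ℤ) = (cl D {y}).card - Dy.card := by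
        rw [e1, Finset.card_sdiff_of_subset hDysub]
        have := Finset.card_le_card hDysub
        omega
      have e3 : cl D' (cl D' {y}) ⊆ cl D (cl D {y}) \ Ey := by
        intro z hz
        rw [Finset.mem_sdiff]
        refine ⟨g_cl_mono D (hclle _) (hclle _ hz), fun hzE => ?_⟩
        rw [hEy, Finset.mem_sdiff, Finset.mem_union] at hzE
        obtain ⟨c, hc, hcz⟩ := g_mem_cl.1 hz
        have hcXT : c ∈ X ∨ c ∈ T := by
          obtain ⟨y', hy', hyc⟩ := g_mem_cl.1 hc
          rw [Finset.mem_singleton] at hy'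
          subst hy'
          rcases hyc with rfl | hyc
          · exact Or.inl hyX
          · exact hyc.2 hyX
        rcases hcz with rfl | hcz
        · rcases hcXT with h | h
          · exact hzE.2 (Or.inr h)
          · exact hzE.2 (Or.inl (g_sub_cl D T h))
        · rcases hcXT with h | h
          · rcases hcz.2 h with h' | h'
            · exact hzE.2 (Or.inr h')
            · exact hzE.2 (Or.inl (g_sub_cl D T h'))
          · exact hzE.2 (Or.inl (g_mem_cl.2 ⟨c, h, Or.inr hcz.1⟩))
      have hEsub : Ey ⊆ cl D (cl D {y}) := fun u hu =>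
        g_cl_mono D hDysub (Finset.mem_sdiff.1 hu).1
      have e4 : ((cl D' (cl D' {y})).card : ℤ) ≤ (cl D (cl D {y})).card - Ey.card := by
        have := Finset.card_le_card e3
        rw [Finset.card_sdiff_of_subset hEsub] at this
        have h2 := Finset.card_le_card hEsub
        omega
      unfold h at hy ⊢
      linarith
    · have e1 : cl D' {y} = cl D {y} := by
        ext u
        rw [g_mem_cl, g_mem_cl]
        simp only [Finset.mem_singleton, exists_eq_left]
        constructor
        · exact hRle _ _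
        · rintro (rfl | hu)
          · exact Or.inl rfl
          · exact Or.inr ⟨hu, fun h => absurd h hyX⟩
      have e2 : ((cl D' (cl D' {y})).card : ℤ) ≤ (cl D (cl D {y})).card := by
        rw [e1]
        exact_mod_cast Finset.card_le_card (hclle _)
      unfold h at hy ⊢
      rw [e1] at e2 ⊢
      linarith
  have hall := hmin.2 D' hD'le hCE
  obtain ⟨z, hzL, hzT⟩ := Finset.exists_of_ssubset hTL
  rw [hL, Finset.mem_sdiff] at hzL
  obtain ⟨x, hx, hxz⟩ := g_mem_cl.1 hzL.1
  rcases hxz with rfl | hxz
  · exact hzL.2 hx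
  · rcases (hall x z hxz).2 hx with h | h
    · exact hzL.2 h
    · exact hzT h

end Vale.Agent.P038.H465.H121
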