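import Vale.Agent.P038.H465.Base

/-! P038, blocks E and F of helper465's split (helper121). -/

namespace Vale.Agent.P038.H465.H121

open Finset

attribute [local instance] Classical.propDecidable

variable {V : Type} [Fintype V]

theorem mem_cl {D : V → V → Prop} {S : Finset V} {u : V} : u ∈ cl D S ↔ ∃ x ∈ S, R D x u := by
  simp [cl]

theorem mem_int {D : V → V → Prop} {S : Finset V} {x : V} :
    x ∈ int D S ↔ ∀ y, R D x y → y ∈ S := by
  simp [int]

theorem mem_er {D : V → V → Prop} {S : Finset V} {z : V} :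
    z ∈ er D S ↔ ∀ z', R D z' z → z' ∈ S := by
  simp [er]

theorem mem_cm {D : V → V → Prop} {S : Finset V} {x : V} : x ∈ cm D S ↔ ∃ y ∈ S, R D x y := by
  simp [cm]

theorem R_refl (D : V → V → Prop) (a : V) : R D a a := Or.inl rfl

theorem sub_cl (D : V → V → Prop) (S : Finset V) : S ⊆ cl D S := fun x hx =>
  mem_cl.2 ⟨x, hx, R_refl D x⟩

theorem int_sub (D : V → V → Prop) (S : Finset V) : int D S ⊆ S := fun x hx =>
  mem_int.1 hx x (R_refl D x)

theorem cl_int_sub (D : V → V → Prop) (S : Finset V) : cl D (int D S) ⊆ S := by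
  intro u hu
  obtain ⟨x, hx, hxu⟩ := mem_cl.1 hu
  exact mem_int.1 hx u hxu

theorem int_cl_int (D : V → V → Prop) (S : Finset V) : int D (cl D (int D S)) = int D S := by
  ext x
  constructor
  · intro hx
    exact mem_int.2 fun y hy => cl_int_sub D S (mem_int.1 hx y hy)
  · intro hx
    exact mem_int.2 fun y hy => mem_cl.2 ⟨x, hx, hy⟩

theorem card_filter_row (r : V → V → Prop) (a : V) (S : Finset V) (h : ∀ u, u ∈ S ↔ r a u) :
    (univ.filter (fun u => r a u)).card = S.card := by
  congr 1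
  ext u
  simp [h]

theorem cnt_le {r s : V → V → Prop} (h : ∀ a u, r a u → s a u) : cnt r ≤ cnt s := by
  unfold cnt
  apply Finset.card_le_card
  intro p hp
  simp only [mem_filter, mem_univ, true_and] at hp ⊢
  exact h _ _ hp

theorem cnt_split (r s : V → V → Prop) :
    cnt r = cnt (fun a u => r a u ∧ s a u) + cnt (fun a u => r a u ∧ ¬ s a u) := by
  unfold cnt
  rw [← Finset.card_filter_add_card_filter_not (s := univ.filter fun p : V × V => r p.1 p.2)
    (fun p : V × V => s p.1 p.2)]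
  simp only [Finset.filter_filter]

theorem cnt_congr {r s : V → V → Prop} (h : ∀ a u, r a u ↔ s a u) : cnt r = cnt s := by
  unfold cnt
  congr 1
  ext p
  simp [h]

theorem cnt_row_sum (r : V → V → Prop) (F : V → Finset V) (h : ∀ a u, u ∈ F a ↔ r a u) :
    (∑ a, ((F a).card : ℤ)) = cnt r := by
  rw [cnt_rows]
  push_cast
  refine Finset.sum_congr rfl fun a _ => ?_
  congr 2
  ext u
  simp [h]

theorem cnt_col_sum (r : V → V → Prop) (F : V → Finset V) (h : ∀ a u, a ∈ F u ↔ r a u) :
    (∑ u, ((F u).card : ℤ)) = cnt r := by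
  rw [cnt_cols]
  push_cast
  refine Finset.sum_congr rfl fun u _ => ?_
  congr 2
  ext a
  simp [h]

/-- block E -/
theorem rot : StRot V := by
  intro D B U hO hF hkey
  set P := PP D U with hP
  set Q := QQ D B with hQ
  let B' : V → Finset V := fun a => univ.filter (fun u => P a u ∧ Q a u)
  let U' : V → Finset V := fun u => univ.filter (fun a => P a u ∨ (Q a u ∧ ¬ D u a))
  have hABAU : ∀ a x, AB D B a x → AU D U a x := fun a x h a' ha' => hF.le _ _ (h a' ha')
  have hEBEU : ∀ a x, EB D B a x → EU D U a x := by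
    rintro a u ⟨x, hx, hxa⟩
    exact ⟨x, hx, hF.le _ _ hxa⟩
  have hfeas : Feas D B' U' := by
    refine ⟨?_, ?_, ?_⟩
    · intro a x hax
      simp only [B', mem_filter, mem_univ, true_and]
      refine ⟨⟨a, hax, fun a' ha' => hF.le _ _ (hF.refl _ _ ha')⟩, fun a' ha' => ⟨a, hax, hF.refl _ _ ha'⟩⟩
    · intro a x hx
      simp only [B', U', mem_filter, mem_univ, true_and] at hx ⊢
      exact Or.inl hx.1
    · intro y z hyz hz
      simp only [U', mem_filter, mem_univ, true_and] at hz
      rcases hz with ⟨x, hxy, hx⟩ | ⟨_, hz⟩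
      · rcases hxy with rfl | hxy
        · exact hF.rev _ _ hyz (hx z (R_refl D z))
        · exact hF.rev _ _ hxy (hx y (Or.inr hyz))
      · exact hz hyz
  refine ⟨B', U', hfeas, ?_⟩
  -- the costs
  have e1 : (∑ a, ((B' a).card : ℤ)) = cnt (fun a u => P a u ∧ Q a u) :=
    cnt_row_sum _ _ (by intro a u; simp [B'])
  have e2 : (cnt (AB D B) : ℤ) ≤ ∑ a, ((int D (B' a)).card : ℤ) := by
    rw [cnt_row_sum (fun a x => x ∈ int D (B' a)) (fun a => int D (B' a)) (fun a u => Iff.rfl)]
    exact_mod_cast cnt_le (by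
      intro z b hzb
      refine mem_int.2 fun y hy => ?_
      simp only [B', mem_filter, mem_univ, true_and]
      exact ⟨⟨b, hy, hABAU _ _ hzb⟩, fun z' hz' => ⟨b, hy, hzb z' hz'⟩⟩)
  have e3 : (∑ x, ((cm D (U' x)).card : ℤ)) ≤ cnt (EU D U) := by
    rw [cnt_col_sum (fun a x => a ∈ cm D (U' x)) (fun x => cm D (U' x)) (fun a u => Iff.rfl)]
    exact_mod_cast cnt_le (by
      intro x b hxb
      obtain ⟨y, hy, hxy⟩ := mem_cm.1 hxb
      simp only [U', mem_filter, mem_univ, true_and] at hy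
      rcases hy with ⟨c, hcb, hc⟩ | ⟨hy, _⟩
      · exact ⟨c, hcb, hc x hxy⟩
      · exact hEBEU _ _ (hy x hxy))
  have e4 : (cnt (fun a u => P a u ∧ Q a u) : ℤ) + cnt (fun a u => P a u ∧ ¬ Q a u) ≤
      ∑ x, ((U' x).card : ℤ) := by
    rw [cnt_col_sum (fun a u => P a u ∨ (Q a u ∧ ¬ D u a)) U' (fun a u => by simp [U'])]
    have := cnt_split P Q
    have h2 : cnt P ≤ cnt (fun a u => P a u ∨ (Q a u ∧ ¬ D u a)) := cnt_le fun a u h => Or.inl h
    omega
  have e5 : (cnt (EU D U) : ℤ) = cnt (EB D B) + cnt (fun a u => EU D U a u ∧ ¬ EB D B a u) := by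
    have := cnt_split (EU D U) (EB D B)
    have h2 : cnt (fun a u => EU D U a u ∧ EB D B a u) = cnt (EB D B) :=
      cnt_congr fun a u => ⟨fun h => h.2, fun h => ⟨hEBEU _ _ h, h⟩⟩
    omega
  have e6 : (cnt (AU D U) : ℤ) = cnt (AB D B) + cnt (fun a u => AU D U a u ∧ ¬ AB D B a u) := by
    have := cnt_split (AU D U) (AB D B)
    have h2 : cnt (fun a u => AU D U a u ∧ AB D B a u) = cnt (AB D B) :=
      cnt_congr fun a u => ⟨fun h => h.2, fun h => ⟨hABAU _ _ h, h⟩⟩
    omega
  have e7 : (cnt (fun a x => a ∈ U x) : ℤ) = cnt (fun a x => x ∈ B a) +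
      cnt (fun a x => a ∈ U x ∧ ¬ x ∈ B a) := by
    have := cnt_split (fun a x => a ∈ U x) (fun a x => x ∈ B a)
    have h2 : cnt (fun a x => a ∈ U x ∧ x ∈ B a) = cnt (fun a x => x ∈ B a) :=
      cnt_congr fun a u => ⟨fun h => h.2, fun h => ⟨hF.le _ _ h, h⟩⟩
    omega
  have e8 : (∑ a, ((cl D (B a)).card : ℤ)) = cnt (EB D B) :=
    cnt_row_sum _ _ (by
      intro a u
      rw [mem_cl]
      exact ⟨fun ⟨x, h1, h2⟩ => ⟨x, h2, h1⟩, fun ⟨x, h1, h2⟩ => ⟨x, h2, h1⟩⟩)
  have e9 : (∑ x, ((er D (U x)).card : ℤ)) = cnt (AU D U) :=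
    cnt_col_sum _ _ (by
      intro a u
      rw [mem_er]
      exact Iff.rfl)
  have e10 : (∑ a, ((B a).card : ℤ)) = cnt (fun a x => x ∈ B a) :=
    cnt_row_sum _ _ (fun a u => Iff.rfl)
  have e11 : (∑ x, ((U x).card : ℤ)) = cnt (fun a x => a ∈ U x) :=
    cnt_col_sum _ _ (fun a u => Iff.rfl)
  have hkey' : (cnt (fun a u => EU D U a u ∧ ¬ EB D B a u) : ℤ) +
      cnt (fun a x => AU D U a x ∧ ¬ AB D B a x) ≤
      cnt (fun a x => a ∈ U x ∧ ¬ x ∈ B a) + cnt (fun a u => P a u ∧ ¬ Q a u) := by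
    exact_mod_cast hkey
  unfold en en'
  simp only [Finset.sum_sub_distrib]
  linarith

theorem h_nonneg {D : V → V → Prop} (hG : ∀ X : Finset V, ¬ cl D X ⊆ X → 0 < h D X)
    (X : Finset V) : 0 ≤ h D X := by
  by_cases hX : cl D X ⊆ X
  · have e : cl D X = X := Finset.Subset.antisymm hX (sub_cl D X)
    unfold h
    rw [e, e]
    ring_nf
    exact le_refl _
  · exact (hG X hX).le

/-- block F -/
theorem final : StFinal V := by
  intro D B U hO hF hmin hmin' hG hout hne
  let X : V → Finset V := fun a => int D (B a)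
  let L : V → Finset V := fun a => cl D (X a)
  let U0 : V → Finset V := fun x => (U x).erase x
  let M0 : V → Finset V := fun x => er D (cm D (U0 x))
  let M : V → Finset V := fun x => insert x (M0 x)
  have hLB : ∀ a, L a ⊆ B a := fun a => cl_int_sub D (B a)
  have hxU : ∀ x, x ∈ U x := fun x => hF.le _ _ (hF.refl _ _ (R_refl D x))
  have hinU : ∀ t x, D t x → t ∈ U0 x := by
    intro t x htx
    refine Finset.mem_erase.2 ⟨?_, hF.le _ _ (hF.refl _ _ (Or.inr htx))⟩
    rintro rfl
    exact hO.1 _ htx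
  have hU0cm : ∀ x, U0 x ⊆ cm D (U0 x) := fun x t ht => mem_cm.2 ⟨t, ht, R_refl D t⟩
  have hU0M0 : ∀ x, U0 x ⊆ M0 x := fun x t ht => mem_er.2 fun z' hz' => mem_cm.2 ⟨t, ht, hz'⟩
  have hxcm : ∀ x, x ∉ cm D (U0 x) := by
    intro x hx
    obtain ⟨t, ht, hxt⟩ := mem_cm.1 hx
    rw [Finset.mem_erase] at ht
    rcases hxt with rfl | hxt
    · exact ht.1 rfl
    · exact hF.rev _ _ hxt ht.2
  have hM0cm : ∀ x, M0 x ⊆ cm D (U0 x) := fun x t ht => mem_er.1 ht t (R_refl D t)
  have hxM0 : ∀ x, x ∉ M0 x := fun x hx => hxcm x (hM0cm x hx)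
  have hrevM0 : ∀ y z, D y z → z ∉ M0 y := by
    intro y z hyz hz
    exact hxcm y (mem_er.1 hz y (Or.inr hyz))
  have hfeas : Feas D L M := by
    refine ⟨?_, ?_, ?_⟩
    · intro a x hax
      exact mem_cl.2 ⟨a, mem_int.2 fun y hy => hF.refl _ _ hy, hax⟩
    · intro a x hx
      by_cases hax : a = x
      · subst hax
        exact Finset.mem_insert_self _ _
      · exact Finset.mem_insert_of_mem (hU0M0 x (Finset.mem_erase.2 ⟨hax, hF.le _ _ (hLB a hx)⟩))
    · intro y z hyz hz
      rcases Finset.mem_insert.1 hz with rfl | hz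
      · exact hO.1 _ hyz
      · exact hrevM0 y z hyz hz
  have hintL : ∀ a, int D (L a) = X a := fun a => int_cl_int D (B a)
  have hcmM : ∀ x, cm D (M x) = cm D (U x) := by
    intro x
    ext t
    rw [mem_cm, mem_cm]
    constructor
    · rintro ⟨y, hy, hty⟩
      rcases Finset.mem_insert.1 hy with rfl | hy
      · exact ⟨y, hxU y, hty⟩
      · obtain ⟨s, hs, hts⟩ := mem_cm.1 (mem_er.1 hy t hty)
        exact ⟨s, Finset.mem_of_mem_erase hs, hts⟩
    · rintro ⟨y, hy, hty⟩
      by_cases hyx : y = x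
      · subst hyx
        exact ⟨y, Finset.mem_insert_self _ _, hty⟩
      · exact ⟨y, Finset.mem_insert_of_mem (hU0M0 x (Finset.mem_erase.2 ⟨hyx, hy⟩)), hty⟩
  have hUM : ∀ x, U x ⊆ M x := by
    intro x y hy
    by_cases hyx : y = x
    · subst hyx
      exact Finset.mem_insert_self _ _
    · exact Finset.mem_insert_of_mem (hU0M0 x (Finset.mem_erase.2 ⟨hyx, hy⟩))
  have hle : en D L M ≤ en D B U := by
    unfold en
    refine add_le_add (Finset.sum_le_sum fun a _ => ?_) (Finset.sum_le_sum fun x _ => ?_)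
    · rw [hintL a]
      have := Finset.card_le_card (hLB a)
      have h2 : ((L a).card : ℤ) ≤ (B a).card := by exact_mod_cast this
      change ((L a).card : ℤ) - ((int D (B a)).card : ℤ) ≤ _
      linarith
    · rw [hcmM x]
      have h2 : ((U x).card : ℤ) ≤ (M x).card := by exact_mod_cast Finset.card_le_card (hUM x)
      linarith
  have hle2 : en D L M ≤ en' D L M := hle.trans (hmin' L M hfeas)
  -- the complementary sets
  let Y : V → Finset V := fun x => (cm D (U0 x))ᶜ
  have hclc : ∀ S : Finset V, cl D Sᶜ = (er D S)ᶜ := by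
    intro S
    ext u
    rw [mem_cl, Finset.mem_compl, mem_er]
    push_neg
    constructor
    · rintro ⟨x, hx, hxu⟩
      exact ⟨x, hxu, Finset.mem_compl.1 hx⟩
    · rintro ⟨x, hxu, hx⟩
      exact ⟨x, Finset.mem_compl.2 hx, hxu⟩
  have hYh : ∀ x, h D (Y x) = ((cm D (U0 x)).card : ℤ) + (er D (M0 x)).card - 2 * (M0 x).card := by
    intro x
    unfold h
    have e1 : cl D (Y x) = (M0 x)ᶜ := hclc _
    rw [e1, hclc]
    have c1 := Finset.card_compl_add_card (cm D (U0 x))
    have c2 := Finset.card_compl_add_card (M0 x)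
    have c3 := Finset.card_compl_add_card (er D (M0 x))
    change 2 * (((M0 x)ᶜ).card : ℤ) - (((cm D (U0 x))ᶜ).card : ℤ) - (((er D (M0 x))ᶜ).card : ℤ) = _
    omega
  have hXh : ∀ a, ((L a).card : ℤ) - (int D (L a)).card - (((cl D (L a)).card : ℤ) - (L a).card) =
      h D (X a) := by
    intro a
    rw [hintL a]
    unfold h
    change ((L a).card : ℤ) - ((X a).card : ℤ) - (((cl D (L a)).card : ℤ) - (L a).card) =
      2 * ((L a).card : ℤ) - (X a).card - ((cl D (L a)).card : ℤ)
    ring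
  have hcol : ∀ x, h D (Y x) ≤ ((cm D (M x)).card : ℤ) - (M x).card -
      (((M x).card : ℤ) - (er D (M x)).card) := by
    intro x
    rw [hYh x]
    have m1 : (M x).card = (M0 x).card + 1 := Finset.card_insert_of_notMem (hxM0 x)
    have m2 : (cm D (U0 x)).card + 1 ≤ (cm D (M x)).card := by
      rw [← Finset.card_insert_of_notMem (hxcm x)]
      apply Finset.card_le_card
      intro t ht
      rcases Finset.mem_insert.1 ht with rfl | ht
      · exact mem_cm.2 ⟨t, Finset.mem_insert_self _ _, R_refl D t⟩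
      · obtain ⟨y, hy, hty⟩ := mem_cm.1 ht
        exact mem_cm.2 ⟨y, Finset.mem_insert_of_mem (hU0M0 x hy), hty⟩
    have m3 : (er D (M0 x)).card + 1 ≤ (er D (M x)).card := by
      have hx' : x ∉ er D (M0 x) := fun hx => hxM0 x (mem_er.1 hx x (R_refl D x))
      rw [← Finset.card_insert_of_notMem hx']
      apply Finset.card_le_card
      intro t ht
      rcases Finset.mem_insert.1 ht with rfl | ht
      · refine mem_er.2 fun z' hz' => ?_
        rcases hz' with rfl | hz'
        · exact Finset.mem_insert_self _ _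
        · exact Finset.mem_insert_of_mem (hU0M0 t (hinU z' t hz'))
      · exact mem_er.2 fun z' hz' => Finset.mem_insert_of_mem (mem_er.1 ht z' hz')
    omega
  have hsum : (∑ a, h D (X a)) + ∑ x, h D (Y x) ≤ en D L M - en' D L M := by
    have e : en D L M - en' D L M =
        (∑ a, (((L a).card : ℤ) - (int D (L a)).card - (((cl D (L a)).card : ℤ) - (L a).card))) +
        ∑ x, (((cm D (M x)).card : ℤ) - (M x).card - (((M x).card : ℤ) - (er D (M x)).card)) := by
      unfold en en'
      simp only [Finset.sum_sub_distrib]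
      ring
    rw [e]
    refine add_le_add (le_of_eq (Finset.sum_congr rfl fun a _ => (hXh a).symm))
      (Finset.sum_le_sum fun x _ => hcol x)
  have hY0 : 0 ≤ ∑ x, h D (Y x) := Finset.sum_nonneg fun x _ => h_nonneg hG _
  have hX0 : ∑ a, h D (X a) ≤ 0 := by linarith
  have hXa : ∀ a, h D (X a) = 0 := by
    intro a
    have := (Finset.sum_eq_zero_iff_of_nonneg (fun a _ => h_nonneg hG (X a))).1
      (le_antisymm hX0 (Finset.sum_nonneg fun a _ => h_nonneg hG (X a)))
    exact this a (Finset.mem_univ a)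
  have hclosed : ∀ a, cl D (X a) ⊆ X a := by
    intro a
    by_contra hc
    have := hG (X a) hc
    rw [hXa a] at this
    exact lt_irrefl _ this
  choose f hf using hout
  obtain ⟨a0⟩ := hne
  obtain ⟨m, n, hmn, he⟩ := Finite.exists_ne_map_eq_of_infinite (fun n : ℕ => f^[n] a0)
  wlog hlt : m < n generalizing m n
  · exact this n m hmn.symm he.symm (lt_of_le_of_ne (not_lt.1 hlt) hmn.symm)
  set a := f^[m] a0 with ha
  have hper : f^[n - m] a = a := by
    rw [ha, ← Function.iterate_add_apply, Nat.sub_add_cancel hlt.le]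
    exact he.symm
  have haX : ∀ k, f^[k] a ∈ X a := by
    intro k
    induction k with
    | zero => exact mem_int.2 fun y hy => hF.refl _ _ hy
    | succ k ih =>
      apply hclosed a
      rw [Function.iterate_succ_apply']
      exact mem_cl.2 ⟨_, ih, Or.inr (hf _)⟩
  obtain ⟨k, hk⟩ : ∃ k, n - m = k + 1 := ⟨n - m - 1, by omega⟩
  have h1 : D (f^[k] a) a := by
    have := hf (f^[k] a)
    rw [← Function.iterate_succ_apply' f k a, show k.succ = n - m from hk.symm, hper] at this
    exact this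
  have h2 : f^[k] a ∈ B a := int_sub D (B a) (haX k)
  exact hF.rev _ _ h1 (hF.le _ _ h2)

end Vale.Agent.P038.H465.H121
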